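import Mathlib
import Crest.Agent.N206.PL.Defs

-- ▼ part N206/Dual/KKT
section

/-! # Row 206 (S0317): optimality conditions for a concave piecewise linear function on a box
(helper6). -/

set_option autoImplicit false

open Finset Filter Topology

namespace Crest.Agent.N206.Dual

variable {E P : Type*} [Fintype E] [Fintype P]

/-- **KKT**.  `m p y = min_g ⟨y, a p g⟩`.  If `x` maximises `∑ w p * m p y - ⟨y, f⟩` on the box
`[lo, hi]`, there is a mixture of the vectors `a p g` active at `x` which is `≤ f` where `x < hi`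
and `≥ f` where `lo < x`. -/
theorem kkt {Γ : P → Type*} [∀ p, Fintype (Γ p)] (a : ∀ p, Γ p → E → ℝ) (w : P → ℝ)
    (hw : ∀ p, 0 ≤ w p) (f lo hi x : E → ℝ) (hlo : lo ≤ x) (hhi : x ≤ hi)
    (m : P → (E → ℝ) → ℝ) (hm : ∀ p y, lo ≤ y → y ≤ hi → ∃ g, m p y = y ⬝ᵥ a p g)
    (hm'' : ∀ p y g, lo ≤ y → y ≤ hi → m p y ≤ y ⬝ᵥ a p g)
    (hmax : ∀ y, lo ≤ y → y ≤ hi → ∑ p, w p * m p y - y ⬝ᵥ f ≤ ∑ p, w p * m p x - x ⬝ᵥ f) :
    ∃ θ : ∀ p, Γ p → ℝ, (∀ p g, 0 ≤ θ p g) ∧ (∀ p, ∑ g, θ p g = w p) ∧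
      (∀ p g, θ p g ≠ 0 → x ⬝ᵥ a p g = m p x) ∧
      (∀ e, x e < hi e → ∑ p, ∑ g, θ p g * a p g e ≤ f e) ∧
      (∀ e, lo e < x e → f e ≤ ∑ p, ∑ g, θ p g * a p g e) := by
  classical
  have hm' : ∀ p g, m p x ≤ x ⬝ᵥ a p g := fun p g => hm'' p x g hlo hhi
  set S : Set (∀ p, Γ p → ℝ) := {θ | (∀ p g, 0 ≤ θ p g) ∧ (∀ p, ∑ g, θ p g = w p) ∧
    ∀ p g, x ⬝ᵥ a p g ≠ m p x → θ p g = 0} with hS
  let L : (∀ p, Γ p → ℝ) →ₗ[ℝ] E → ℝ :=
    { toFun := fun θ e => ∑ p, ∑ g, θ p g * a p g e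
      map_add' := fun θ θ' => by ext e; simp [add_mul, sum_add_distrib]
      map_smul' := fun c θ => by ext e; simp [mul_sum, mul_assoc] }
  set B : Set (E → ℝ) := {y | (∀ e, x e < hi e → y e ≤ f e) ∧ ∀ e, lo e < x e → f e ≤ y e} with hB
  by_contra hcon
  have hd : Disjoint (L '' S) B := by
    rw [Set.disjoint_left]
    rintro _ ⟨θ, ⟨h1, h2, h3⟩, rfl⟩ ⟨h4, h5⟩
    exact hcon ⟨θ, h1, h2, fun p g h => by_contra fun h' => h (h3 p g h'), h4, h5⟩
  have hSc : Convex ℝ S := by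
    rintro θ ⟨h1, h2, h3⟩ θ' ⟨h1', h2', h3'⟩ s t hs ht hst
    refine ⟨fun p g => ?_, fun p => ?_, fun p g h => ?_⟩
    · have := h1 p g; have := h1' p g
      simp only [Pi.add_apply, Pi.smul_apply, smul_eq_mul]; positivity
    · simp only [Pi.add_apply, Pi.smul_apply, smul_eq_mul, sum_add_distrib, ← mul_sum, h2, h2',
        ← add_mul, hst, one_mul]
    · simp [h3 p g h, h3' p g h]
  have hSk : IsCompact S := by
    refine (isCompact_Icc (a := 0) (b := fun p _ => w p)).of_isClosed_subset ?_ ?_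
    · simp only [hS, Set.ofPred_and, Set.ofPred_forall]
      refine (isClosed_iInter fun p => isClosed_iInter fun g =>
        isClosed_le continuous_const (by fun_prop)).inter ((isClosed_iInter fun p =>
        isClosed_eq (by fun_prop) continuous_const).inter (isClosed_iInter fun p =>
        isClosed_iInter fun g => isClosed_iInter fun _ => isClosed_eq (by fun_prop)
          continuous_const))
    · rintro θ ⟨h1, h2, -⟩
      exact ⟨fun p g => h1 p g, fun p g =>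
        (single_le_sum (fun g _ => h1 p g) (mem_univ g)).trans_eq (h2 p)⟩
  have hBc : Convex ℝ B := by
    rintro y ⟨h1, h2⟩ y' ⟨h1', h2'⟩ s t hs ht hst
    refine ⟨fun e h => ?_, fun e h => ?_⟩ <;>
      simp only [Pi.add_apply, Pi.smul_apply, smul_eq_mul]
    · nlinarith [h1 e h, h1' e h, show f e = (s + t) * f e by rw [hst, one_mul]]
    · nlinarith [h2 e h, h2' e h, show f e = (s + t) * f e by rw [hst, one_mul]]
  have hBk : IsClosed B := by
    simp only [hB, Set.ofPred_and, Set.ofPred_forall]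
    exact (isClosed_iInter fun e => isClosed_iInter fun _ =>
      isClosed_le (by fun_prop) continuous_const).inter
      (isClosed_iInter fun e => isClosed_iInter fun _ => isClosed_le continuous_const (by fun_prop))
  obtain ⟨φ, u, u', h1, h2, h3⟩ := geometric_hahn_banach_compact_closed (hSc.linear_image L)
    (hSk.image L.continuous_of_finiteDimensional) hBc hBk hd
  set v : E → ℝ := fun e => -φ (Pi.single e 1) with hv
  have hφ : ∀ y, φ y = -(v ⬝ᵥ y) := fun y => by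
    conv_lhs => rw [pi_eq_sum_univ' y]
    simp [hv, dotProduct, mul_comm]
  have hf : u' < φ f := h3 f ⟨fun _ _ => le_rfl, fun _ _ => le_rfl⟩
  have hray : ∀ (e : E) (σ : ℝ), (∀ t : ℝ, 0 ≤ t → f + (t * σ) • Pi.single e (1 : ℝ) ∈ B) →
      σ * v e ≤ 0 := by
    intro e σ h
    by_contra hc
    have hc : 0 < σ * v e := not_le.1 hc
    have := h3 _ (h ((φ f - u') / (σ * v e)) (div_nonneg (by linarith) hc.le))
    rw [map_add, map_smul, smul_eq_mul, show φ (Pi.single e 1) = -v e by simp [hv], mul_assoc,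
      mul_neg σ (v e), mul_neg _ (σ * v e), div_mul_cancel₀ _ hc.ne'] at this
    linarith
  have hv1 : ∀ e, ¬x e < hi e → v e ≤ 0 := fun e h => by
    simpa using hray e 1 fun t ht => ⟨fun e' h' => by
      rw [Pi.add_apply, Pi.smul_apply, Pi.single_eq_of_ne (by rintro rfl; exact h h')]; simp,
      fun e' _ => by
        by_cases h' : e' = e
        · subst h'; simpa using ht
        · simp [Pi.single_eq_of_ne h']⟩
  have hv2 : ∀ e, ¬lo e < x e → 0 ≤ v e := fun e h => by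
    simpa using hray e (-1) fun t ht => ⟨fun e' _ => by
        by_cases h' : e' = e
        · subst h'; simpa using ht
        · simp [Pi.single_eq_of_ne h'], fun e' h' => by
      rw [Pi.add_apply, Pi.smul_apply, Pi.single_eq_of_ne (by rintro rfl; exact h h')]; simp⟩
  have hcont : ∀ {c d c' d' : ℝ}, c < c' → ∀ᶠ t in 𝓝[>] (0 : ℝ), c + t * d < c' + t * d' :=
    fun {c d c' d'} h => mem_nhdsWithin_of_mem_nhds (ContinuousAt.eventually_lt
      (f := fun t => c + t * d) (g := fun t => c' + t * d') (by fun_prop) (by fun_prop)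
      (by simpa using h))
  choose g₀ hg₀ using fun p => hm p x hlo hhi
  have E1 : ∀ᶠ t in 𝓝[>] (0 : ℝ), ∀ e, lo e ≤ x e + t * v e ∧ x e + t * v e ≤ hi e := by
    refine eventually_all.2 fun e => Eventually.and ?_ ?_
    · by_cases h : lo e < x e
      · exact (hcont (d := 0) (d' := v e) h).mono fun t ht => by linarith
      · exact eventually_mem_nhdsWithin.mono fun t ht => by
          nlinarith [hv2 e h, hlo e, Set.mem_Ioi.1 ht]
    · by_cases h : x e < hi e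
      · exact (hcont (d := v e) (d' := 0) h).mono fun t ht => by linarith
      · exact eventually_mem_nhdsWithin.mono fun t ht => by
          nlinarith [hv1 e h, hhi e, Set.mem_Ioi.1 ht]
  have E2 : ∀ᶠ t in 𝓝[>] (0 : ℝ), ∀ p g, x ⬝ᵥ a p g ≠ m p x →
      m p x + t * v ⬝ᵥ a p (g₀ p) < x ⬝ᵥ a p g + t * v ⬝ᵥ a p g :=
    eventually_all.2 fun p => eventually_all.2 fun g => eventually_all.2 fun h =>
      hcont (lt_of_le_of_ne (hm' p g) h.symm)
  obtain ⟨t, ⟨t1, t2⟩, ht⟩ := ((E1.and E2).and eventually_mem_nhdsWithin).exists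
  have ht : 0 < t := ht
  have y1 : lo ≤ x + t • v := fun e => (t1 e).1
  have y2 : x + t • v ≤ hi := fun e => (t1 e).2
  choose g hg using fun p => hm p (x + t • v) y1 y2
  have hact : ∀ p, x ⬝ᵥ a p (g p) = m p x := fun p => by
    by_contra h
    have h4 := t2 p _ h
    have h5 := hm'' p _ (g₀ p) y1 y2
    rw [hg, add_dotProduct, add_dotProduct, smul_dotProduct, smul_dotProduct, ← hg₀] at h5
    exact absurd h5 (not_le.2 h4)
  have h4 := h1 _ ⟨fun p => Pi.single (g p) (w p), ⟨fun p g' => by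
      by_cases h : g' = g p
      · subst h; simpa using hw p
      · simp [Pi.single_eq_of_ne h], fun p => by simp,
    fun p g' h => Pi.single_eq_of_ne (by rintro rfl; exact h (hact p)) _⟩, rfl⟩
  have h5 : L (fun p => Pi.single (g p) (w p)) = ∑ p, w p • a p (g p) := by
    ext e
    simp [L, Pi.single_apply, Finset.sum_apply]
  have h6 := hmax _ y1 y2
  simp only [hg, add_dotProduct, smul_dotProduct, hact, smul_eq_mul, mul_add, sum_add_distrib,
    mul_left_comm _ t, ← mul_sum] at h6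
  rw [h5, hφ, dotProduct_sum] at h4
  simp only [dotProduct_smul, smul_eq_mul] at h4
  rw [hφ] at hf
  nlinarith

/-- **Ville's alternative** -/
theorem ville {Γ : Type*} [Fintype Γ] [Nonempty Γ] (a : Γ → E → ℝ) :
    (∃ θ : Γ → ℝ, (∀ g, 0 ≤ θ g) ∧ ∑ g, θ g = 1 ∧ ∀ e, ∑ g, θ g * a g e ≤ 0) ∨
    ∃ y : E → ℝ, 0 ≤ y ∧ ∀ g, 0 < y ⬝ᵥ a g := by
  refine or_iff_not_imp_right.2 fun h => ?_
  push Not at h
  have hm : ∀ y : E → ℝ, ∃ g, ∀ g', y ⬝ᵥ a g ≤ y ⬝ᵥ a g' := fun y =>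
    Finite.exists_min fun g => y ⬝ᵥ a g
  choose g hg using hm
  obtain ⟨θ, h1, h2, -, h4, -⟩ := kkt (P := Unit) (Γ := fun _ => Γ) (fun _ => a) (fun _ => 1)
    (fun _ => zero_le_one) 0 0 1 0 le_rfl zero_le_one (fun _ y => y ⬝ᵥ a (g y))
    (fun _ y _ _ => ⟨g y, rfl⟩) (fun _ y g' _ _ => hg y g') fun y hy _ => by
      obtain ⟨g', hg'⟩ := h y hy
      simpa using (hg y g').trans hg'
  exact ⟨θ (), h1 (), h2 (), fun e => by simpa using h4 e (by simp)⟩

end Crest.Agent.N206.Dual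
end

-- ▼ part N206/Dual/Opt

/-! # Row 206 (S0317): existence of an optimal point, edge counts of walks (helper6). -/

set_option autoImplicit false

open Finset SimpleGraph
open Crest.GeometryTopology.GraphMetric

namespace Crest.Agent.N206.Dual

open PL

theorem exists_opt {E P : Type*} [Fintype E] [Fintype P] {Γ : P → Type*} [∀ p, Fintype (Γ p)]
    [∀ p, Nonempty (Γ p)] (a : ∀ p, Γ p → E → ℝ) (w : P → ℝ) (hw : ∀ p, 0 ≤ w p)
    (f lo hi : E → ℝ) (h : lo ≤ hi) :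
    ∃ (x : E → ℝ) (m : P → ℝ) (θ : ∀ p, Γ p → ℝ), lo ≤ x ∧ x ≤ hi ∧
      (∀ p g, m p ≤ x ⬝ᵥ a p g) ∧ (∀ p, ∃ g, x ⬝ᵥ a p g = m p) ∧
      (∀ y, lo ≤ y → y ≤ hi → ∀ μ : P → ℝ, (∀ p g, μ p ≤ y ⬝ᵥ a p g) →
        ∑ p, w p * μ p - y ⬝ᵥ f ≤ ∑ p, w p * m p - x ⬝ᵥ f) ∧
      (∀ p g, 0 ≤ θ p g) ∧ (∀ p, ∑ g, θ p g = w p) ∧ (∀ p g, θ p g ≠ 0 → x ⬝ᵥ a p g = m p) ∧
      (∀ e, x e < hi e → ∑ p, ∑ g, θ p g * a p g e ≤ f e) ∧
      (∀ e, lo e < x e → f e ≤ ∑ p, ∑ g, θ p g * a p g e) := by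
  set m : P → (E → ℝ) → ℝ := fun p y => univ.inf' univ_nonempty fun g => y ⬝ᵥ a p g with hm
  have h1 : ∀ p y g, m p y ≤ y ⬝ᵥ a p g := fun p y g => inf'_le _ (mem_univ g)
  have h2 : ∀ p y, ∃ g, m p y = y ⬝ᵥ a p g := fun p y =>
    (exists_mem_eq_inf' univ_nonempty fun g => y ⬝ᵥ a p g).imp fun _ h => h.2
  have hc : Continuous fun y => ∑ p, w p * m p y - y ⬝ᵥ f :=
    (continuous_finsetSum _ fun p _ => continuous_const.mul
      (Continuous.finset_inf'_apply _ fun g _ => by fun_prop)).sub (by fun_prop)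
  obtain ⟨x, hx, hmax⟩ := (isCompact_Icc (a := lo) (b := hi)).exists_isMaxOn ⟨lo, le_rfl, h⟩
    hc.continuousOn
  obtain ⟨θ, h3⟩ := kkt a w hw f lo hi x hx.1 hx.2 m (fun p y _ _ => h2 p y)
    (fun p y g _ _ => h1 p y g) fun y y1 y2 => hmax ⟨y1, y2⟩
  refine ⟨x, fun p => m p x, θ, hx.1, hx.2, fun p => h1 p x,
    fun p => (h2 p x).imp fun _ h => h.symm, fun y y1 y2 μ hμ => le_trans ?_ (hmax ⟨y1, y2⟩), h3⟩
  exact sub_le_sub_right (sum_le_sum fun p _ => mul_le_mul_of_nonneg_left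
    (le_inf' _ _ fun g _ => hμ p g) (hw p)) _

variable {V : Type} {G : SimpleGraph V}

open Classical in
/-- number of traversals of an edge -/
noncomputable def cnt {x y : V} (p : G.Walk x y) (e : Sym2 V) : ℝ := p.edges.count e

theorem cnt_nonneg {x y : V} (p : G.Walk x y) (e : Sym2 V) : 0 ≤ cnt p e := Nat.cast_nonneg _

theorem mem_of_cnt {x y : V} {p : G.Walk x y} {e : Sym2 V} (h : cnt p e ≠ 0) : e ∈ p.edges := by
  classical
  by_contra h'
  exact h (by simp [cnt, List.count_eq_zero_of_not_mem h'])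

theorem dot_cnt [Fintype V] (ℓ : Sym2 V → ℝ) {x y : V} (p : G.Walk x y) :
    ℓ ⬝ᵥ cnt p = wl ℓ p := by
  classical
  unfold wl cnt dotProduct
  induction p.edges with
  | nil => simp
  | cons e l ih =>
    simp only [List.count_cons, Nat.cast_add, mul_add, sum_add_distrib, ih, List.map_cons,
      List.sum_cons, add_comm, beq_iff_eq, Nat.cast_ite, Nat.cast_one, Nat.cast_zero, mul_ite,
      mul_one, mul_zero, sum_ite_eq, mem_univ, if_true]

theorem wl_congr {ℓ ℓ' : Sym2 V → ℝ} (h : ∀ e ∈ G.edgeSet, ℓ e = ℓ' e) {x y : V}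
    (p : G.Walk x y) : wl ℓ p = wl ℓ' p :=
  congrArg List.sum (List.map_congr_left fun e he => h e (p.edges_subset_edgeSet he))

theorem wl_toPath_le [DecidableEq V] {ℓ : Sym2 V → ℝ} (h : ∀ e ∈ G.edgeSet, 0 ≤ ℓ e) {x y : V}
    (p : G.Walk x y) : wl ℓ (p.toPath : G.Walk x y) ≤ wl ℓ p :=
  ((p.edges_bypass_sublist_edges).map ℓ).sum_le_sum fun a ha => by
    obtain ⟨e, he, rfl⟩ := List.mem_map.1 ha
    exact h e (p.edges_subset_edgeSet he)

theorem wl_split [DecidableEq V] (ℓ : Sym2 V → ℝ) {x y z : V} (p : G.Walk x y)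
    (h : z ∈ p.support) : wl ℓ (p.takeUntil z h) + wl ℓ (p.dropUntil z h) = wl ℓ p := by
  conv_rhs => rw [← p.take_spec h]
  simp only [wl, Walk.edges_append, List.map_append, List.sum_append]

open Classical in
/-- lengths, zero off the edge set -/
noncomputable def ext0 (G : SimpleGraph V) (ℓ : Sym2 V → ℝ) (e : Sym2 V) : ℝ :=
  if e ∈ G.edgeSet then ℓ e else 0

theorem ext0_eq (ℓ : Sym2 V → ℝ) : ∀ e ∈ G.edgeSet, ext0 G ℓ e = ℓ e := fun _ he => if_pos he

theorem ext0_nonneg {ℓ : Sym2 V → ℝ} (h : ∀ e ∈ G.edgeSet, 0 < ℓ e) (e : Sym2 V) :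
    0 ≤ ext0 G ℓ e := by
  unfold ext0
  split_ifs with he
  exacts [(h e he).le, le_rfl]

end Crest.Agent.N206.Dual
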